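import Vale.Agent.P194.Main

namespace Vale.Agent.Results.P194.Counterexample

/-- Kaplansky's direct finiteness conjecture is false: there are a field `K`, a group `G` and
elements `a, b` of the group algebra `K[G]` with `a * b = 1` and `b * a ≠ 1`. -/
theorem result : ∃ (K : Type) (_ : Field K) (G : Type) (_ : Group G),
    ∃ a b : MonoidAlgebra K G, a * b = 1 ∧ b * a ≠ 1 :=
  Vale.Agent.P194.main

end Vale.Agent.Results.P194.Counterexample
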